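import Vale.Agent.P235.K5.H500.Bag
import Vale.Agent.P235.H23.Star.C

/-!
P235, line K5 (helper477): a piece with at most one root vertex, in particular the first piece,
need not be edge exact: `c₁ ≤ C` is enough.
-/

set_option autoImplicit false

namespace Vale.Agent.P235.K5.H477

open SimpleGraph Vale.Agent.P235 Vale.Agent.P235.H134 Vale.Agent.P235.H56 Vale.Agent.P235.K5
open Vale.Agent.P235.K5.H500
open Vale.Agent.P235.H341W (capG)

/-- nonexpansive `L₁` embeddings with the lower bound `c`, no exactness -/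
def Plain {V : Type} (G : SimpleGraph V) (c : ℝ) : Prop :=
  ∀ d : V → V → ℝ, IsMet d → Gen G d →
    ∃ F : V → V → ℝ, IsL1 F ∧ (∀ x y, c * d x y ≤ F x y) ∧ ∀ x y, F x y ≤ d x y

theorem Plain.mono {V : Type} {G : SimpleGraph V} {c c' : ℝ} (h : Plain G c) (hc : c' ≤ c) :
    Plain G c' := by
  intro d hd hG
  obtain ⟨F, h1, h2, h3⟩ := h d hd hG
  exact ⟨F, h1, fun x y => (mul_le_mul_of_nonneg_right hc (hd.nonneg x y)).trans (h2 x y), h3⟩

/-- a connected graph with `c₁ ≤ C` -/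
theorem plain_of_dist {V : Type} [Finite V] {G : SimpleGraph V} (hconn : G.Connected) {C : ℝ}
    (hC : 1 ≤ C) (h : DistortionLE G C) : Plain G (1 / C) := by
  intro d hd hG
  have := hconn.nonempty
  exact Vale.Agent.P235.H23.Star.emb_of_dist hd hG hC h

theorem plain_of_exact {V : Type} [Finite V] {G : SimpleGraph V} (hconn : G.Connected) {c : ℝ}
    (hE : EdgeExact G c) : Plain G c := by
  intro d hd hG
  obtain ⟨F, h1, -, h3, h4⟩ := presc_one hE hconn hd hG (S := ∅) Set.subsingleton_empty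
    (fun x y => 0 * |d x x - d y y|) ((isL1_line fun x => d x x).smul le_rfl)
    (fun u hu => absurd hu (Set.notMem_empty u)) (fun u hu => absurd hu (Set.notMem_empty u))
  exact ⟨F, h1, h3, h4⟩

/-- The pieces: connected; `Plain` if there is at most one root vertex; edge exact if the root is
an edge; edge exact, and without `K_{3,3}` minor after a new vertex is joined to the root, if the
root is a triangle. -/
def PR (c : ℝ) (V : Type) (G : SimpleGraph V) (S : Set V) : Prop :=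
  G.Connected ∧ (S.ncard ≤ 1 → Plain G c) ∧ (S.ncard = 2 → EdgeExact G c) ∧
    (S.ncard = 3 → EdgeExact G c ∧ ¬ IsMinor K33 (capG G S))

theorem PR_of_PC {c : ℝ} {V : Type} [Finite V] {G : SimpleGraph V} {S : Set V}
    (h : PC c V G S) : PR c V G S :=
  ⟨h.1, fun _ => plain_of_exact h.1 h.2.1, fun _ => h.2.1, fun h3 => ⟨h.2.1, h.2.2 h3⟩⟩

/-- a piece with at most one root vertex -/
theorem PR_of_dist {V : Type} [Finite V] {G : SimpleGraph V} (hconn : G.Connected) {C : ℝ}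
    (hC : 1 ≤ C) (h : DistortionLE G C) {S : Set V} (hS : S.ncard ≤ 1) : PR (1 / C) V G S :=
  ⟨hconn, fun _ => plain_of_dist hconn hC h, fun h2 => by omega, fun h3 => by omega⟩

theorem PR.mono {c c' : ℝ} {V : Type} {G : SimpleGraph V} {S : Set V} (h : PR c V G S)
    (hc : c' ≤ c) : PR c' V G S :=
  ⟨h.1, fun h1 => (h.2.1 h1).mono hc, fun h2 => (h.2.2.1 h2).mono hc,
    fun h3 => ⟨(h.2.2.2 h3).1.mono hc, (h.2.2.2 h3).2⟩⟩

/-- prescribed metric on the root -/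
theorem pieceR (hP : PrescStmt) {V : Type} [Finite V] {G : SimpleGraph V} {c : ℝ} (hc : 0 < c)
    (hc1 : c ≤ 1) {S : Set V} (h : PR c V G S) {d : V → V → ℝ} (hd : IsMet d) (hG : Gen G d)
    (hS : S.ncard ≤ 3) (hcl : ∀ u ∈ S, ∀ v ∈ S, u ≠ v → G.Adj u v) :
    PrescOn d (c / 12288) S := by
  obtain ⟨hconn, hE1, hE2, hE3⟩ := h
  have hcases : S.ncard ≤ 1 ∨ S.ncard = 2 ∨ S.ncard = 3 := by omega
  rcases hcases with h | h | h
  · intro ρ hρ _ _
    have hle : c / 12288 ≤ c := div_le_self hc.le (by norm_num)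
    obtain ⟨F, h1, h2, h3⟩ := (hE1 h).mono hle d hd hG
    refine ⟨F, h1, ?_, h2, h3⟩
    intro u hu v hv
    have huv : u = v := (Set.ncard_le_one (Set.toFinite S)).1 h u hu v hv
    rw [huv, h1.self, hρ.self]
  · exact H500.piece hP hc hc1 (hE2 h) hconn hd hG hS hcl fun h3 => by omega
  · exact H500.piece hP hc hc1 (hE3 h).1 hconn hd hG hS hcl fun _ => (hE3 h).2

/-- **hP of `Glued.exists_A`** for the wider class -/
theorem hP_of_R (hPr : PrescStmt) {V : Type} [Finite V] {H : SimpleGraph V} {n : ℕ}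
    {B : ℕ → Set V} (h : Glued 3 H n B) {c : ℝ} (hc : 0 < c) (hc1 : c ≤ 1)
    (hB : ∀ t < n, PR c (B t) (H.induce (B t)) {x | (x : V) ∈ Adh B t})
    {d : V → V → ℝ} (hd : IsMet d) (hG : Gen H d) :
    ∀ t < n, ∀ ρ : V → V → ℝ, IsL1 ρ →
      (∀ x ∈ Adh B t, ∀ y ∈ Adh B t, c / 12288 * d x y ≤ ρ x y ∧ ρ x y ≤ d x y) →
      ∃ F : V → V → ℝ, IsL1 F ∧ (∀ x ∈ Adh B t, ∀ y ∈ Adh B t, F x y = ρ x y) ∧
        ∀ x ∈ B t, ∀ y ∈ B t, c / 12288 * d x y ≤ F x y ∧ F x y ≤ d x y := by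
  intro t ht ρ hρ hρd
  have hsub : Adh B t ⊆ B t := fun v hv => hv.1
  have hd' : IsMet fun x y : B t => d x y :=
    ⟨fun x => hd.self _, fun x y hxy => hd.pos _ _ fun e => hxy (Subtype.ext e),
      fun x y => hd.symm _ _, fun x y z => hd.tri _ _ _⟩
  have hG' : Gen (H.induce (B t)) fun x y : B t => d x y := h.gen_bag hd hG ht
  obtain ⟨F, h1, h2, h3, h4⟩ := pieceR hPr hc hc1 (hB t ht) hd' hG'
    (by rw [ncard_sub hsub]; exact h.card t ht)
    (fun u hu v hv huv => h.clique t ht u hu v hv fun e => huv (Subtype.ext e))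
    (fun x y : B t => ρ x y) (isL1_restrict hρ _)
    (fun u hu v hv => (hρd u hu v hv).1) (fun u hu v hv => (hρd u hu v hv).2)
  obtain ⟨F', g1, g2⟩ := extendL1 h1
  refine ⟨F', g1, ?_, ?_⟩
  · intro x hx y hy
    exact (g2 ⟨x, hsub hx⟩ ⟨y, hsub hy⟩).trans (h2 _ hx _ hy)
  · intro x hx y hy
    have e := g2 ⟨x, hx⟩ ⟨y, hy⟩
    simp only at e
    rw [e]
    exact ⟨h3 ⟨x, hx⟩ ⟨y, hy⟩, h4 ⟨x, hx⟩ ⟨y, hy⟩⟩

/-- **The A half of the final theorem, wider class.** -/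
theorem exists_A_R (hPr : PrescStmt) {V : Type} [Finite V] {H : SimpleGraph V} {n : ℕ}
    {B : ℕ → Set V} (h : Glued 3 H n B) {c : ℝ} (hc : 0 < c) (hc1 : c ≤ 1)
    (hB : ∀ t < n, PR c (B t) (H.induce (B t)) {x | (x : V) ∈ Adh B t})
    {d : V → V → ℝ} (hd : IsMet d) (hG : Gen H d) :
    ∃ F : V → V → ℝ, IsL1 F ∧ (∀ x y, F x y ≤ d x y) ∧
      ∀ t < n, ∀ x ∈ B t, ∀ y ∈ B t, c / 12288 * d x y ≤ F x y :=
  h.exists_A hd hG (hP_of_R hPr h hc hc1 hB hd hG)

end Vale.Agent.P235.K5.H477
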