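import Vale.Agent.P235.K5.EX.H452.Fin
import Vale.Agent.P235.K5.EX.Defs
import Vale.Agent.P235.K5.H477.Root

set_option linter.all false

/-!
# P235, line EX (helper489): a piece with at most one root vertex, in particular the first piece,
only has to satisfy `c₁ ≤ C` (helper477)
-/

namespace Vale.Agent.P235.K5.H477

open Finset Vale.Agent.P235 Vale.Agent.P235.H684 Vale.Agent.P235.K5
open Vale.Agent.P235.K5.EX.H452 (PieceQ exists_A_tri)

/-- the pieces: connected; `Plain` if there is at most one root vertex; otherwise edge exact -/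
def PX (c : ℝ) (V : Type) (G : SimpleGraph V) (S : Set V) : Prop :=
  G.Connected ∧ (S.ncard ≤ 1 → Plain G c) ∧ (2 ≤ S.ncard → EdgeExact G c)

/-- the relation holds whenever `F ≤ d / 2` -/
def Half (q : ℝ → ℝ → ℝ → ℝ → ℝ → ℝ → Prop) : Prop :=
  ∀ a b c a' b' c' : ℝ, 0 ≤ a' → 0 ≤ b' → 0 ≤ c' → a' ≤ a / 2 → b' ≤ b / 2 → c' ≤ c / 2 →
    q a b c a' b' c'

theorem exists_A_X {q : ℝ → ℝ → ℝ → ℝ → ℝ → ℝ → Prop} (hq : Half q) {c c' : ℝ}
    (hc0 : 0 < c) (hcc : c' ≤ c / 2) (hPc : PieceQ q c c')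
    {V : Type} [Finite V] {H : SimpleGraph V} {n : ℕ} {B : ℕ → Set V} (h : Glued 3 H n B)
    (hB : ∀ t < n, PX c (B t) (H.induce (B t)) {x | (x : V) ∈ Adh B t})
    {d : V → V → ℝ} (hd : IsMet d) (hG : Gen H d) :
    ∃ F : V → V → ℝ, IsL1 F ∧ (∀ x y, F x y ≤ d x y) ∧
      ∀ t < n, ∀ x ∈ B t, ∀ y ∈ B t, c' * d x y ≤ F x y := by
  refine exists_A_tri h hd hG
    (Q := fun F x y z => q (d x y) (d y z) (d x z) (F x y) (F y z) (F x z)) ?_ ?_
  · intro F F' x y z h1 h2 h3 h4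
    rw [← h1, ← h2, ← h3]
    exact h4
  intro t ht ρ hρ hρd hρt
  obtain ⟨hconn, hE1, hE2⟩ := hB t ht
  have hsub : Adh B t ⊆ B t := fun v hv => hv.1
  have hd' : IsMet fun x y : B t => d x y :=
    ⟨fun x => hd.self _, fun x y hxy => hd.pos _ _ fun e => hxy (Subtype.ext e),
      fun x y => hd.symm _ _, fun x y z => hd.tri _ _ _⟩
  have hG' : Gen (H.induce (B t)) fun x y : B t => d x y := h.gen_bag hd hG ht
  have hex : ∃ F : B t → B t → ℝ, IsL1 F ∧
      (∀ u ∈ ({x | (x : V) ∈ Adh B t} : Set (B t)), ∀ v ∈ ({x | (x : V) ∈ Adh B t} : Set (B t)),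
        F u v = ρ u v) ∧
      (∀ x y : B t, c' * d x y ≤ F x y) ∧ (∀ x y : B t, F x y ≤ d x y) ∧
      ∀ x y z : B t, (H.induce (B t)).Adj x y → (H.induce (B t)).Adj y z →
        (H.induce (B t)).Adj x z →
          q (d x y) (d y z) (d x z) (F x y) (F y z) (F x z) := by
    by_cases hcard : ({x | (x : V) ∈ Adh B t} : Set (B t)).ncard ≤ 1
    · obtain ⟨F, h1, h2, h3⟩ := hE1 hcard _ hd' hG'
      refine ⟨fun x y => 1 / 2 * F x y, h1.smul (by norm_num), ?_, ?_, ?_, ?_⟩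
      · intro u hu v hv
        have huv : u = v := (Set.ncard_le_one (Set.toFinite _)).1 hcard u hu v hv
        subst huv
        show 1 / 2 * F u u = ρ u u
        rw [h1.self, hρ.self]
        norm_num
      · intro x y
        have h4 : c * d x y ≤ F x y := h2 x y
        have h5 : c' * d x y ≤ c / 2 * d x y :=
          mul_le_mul_of_nonneg_right hcc (hd.nonneg _ _)
        show c' * d x y ≤ 1 / 2 * F x y
        linarith
      · intro x y
        have h4 : F x y ≤ d x y := h3 x y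
        have h5 := hd.nonneg (x : V) y
        show 1 / 2 * F x y ≤ d x y
        linarith
      · intro x y z _ _ _
        have a1 : F x y ≤ d x y := h3 x y
        have a2 : F y z ≤ d y z := h3 y z
        have a3 : F x z ≤ d x z := h3 x z
        have b1 := h1.nonneg x y
        have b2 := h1.nonneg y z
        have b3 := h1.nonneg x z
        exact hq _ _ _ _ _ _ (by linarith) (by linarith) (by linarith) (by linarith)
          (by linarith) (by linarith)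
    · exact hPc (B t) (H.induce (B t)) hconn (hE2 (by omega))
        (fun x y : B t => d x y) hd' hG' {x | (x : V) ∈ Adh B t}
        (by rw [H500.ncard_sub hsub]; exact h.card t ht)
        (fun u hu v hv huv => h.clique t ht u hu v hv fun e => huv (Subtype.ext e))
        (fun x y : B t => ρ x y) (H500.isL1_restrict hρ _)
        (fun u hu v hv => (hρd u hu v hv).1) (fun u hu v hv => (hρd u hu v hv).2)
        (fun x hx y hy z hz h1 h2 h3 => hρt x hx y hy z hz h1 h2 h3)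
  obtain ⟨F, h1, h2, h3, h4, h5⟩ := hex
  obtain ⟨F', g1, g2⟩ := extendL1 h1
  refine ⟨F', g1, ?_, ?_, ?_⟩
  · intro x hx y hy
    exact (g2 ⟨x, hsub hx⟩ ⟨y, hsub hy⟩).trans (h2 _ hx _ hy)
  · intro x hx y hy
    have e := g2 ⟨x, hx⟩ ⟨y, hy⟩
    simp only at e
    rw [e]
    exact ⟨h3 ⟨x, hx⟩ ⟨y, hy⟩, h4 ⟨x, hx⟩ ⟨y, hy⟩⟩
  · intro x hx y hy z hz hxy hyz hxz
    have e1 := g2 ⟨x, hx⟩ ⟨y, hy⟩
    have e2 := g2 ⟨y, hy⟩ ⟨z, hz⟩
    have e3 := g2 ⟨x, hx⟩ ⟨z, hz⟩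
    simp only at e1 e2 e3
    show q (d x y) (d y z) (d x z) (F' x y) (F' y z) (F' x z)
    rw [e1, e2, e3]
    exact h5 ⟨x, hx⟩ ⟨y, hy⟩ ⟨z, hz⟩ hxy hyz hxz

/-- **The embedding of a clique sum.** -/
theorem embX {q : ℝ → ℝ → ℝ → ℝ → ℝ → ℝ → Prop} (hq : Half q) {c c' : ℝ}
    (hc0 : 0 < c) (hcc : c' ≤ c / 2) (hPc : PieceQ q c c') {m : ℕ}
    {V : Type} [Finite V] {H : SimpleGraph V} {B : ℕ → Set V}
    (h : Glued 3 H m B) (hnew : ∀ t < m, ∃ v ∈ B t, v ∉ Bef B t) {C1 : ℝ} (hC1 : 0 < C1)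
    (hN : ∀ (n T : ℕ) (Z : Tor n T 3) (d : Fin n → Fin n → ℝ), Z.Sep d → Z.NLaw d C1)
    (hc : 0 < c') (hc1 : c' ≤ 1)
    (hB : ∀ t < m, PX c (B t) (H.induce (B t)) {x | (x : V) ∈ Adh B t})
    {d : V → V → ℝ} (hd : IsMet d) (hG : Gen H d) :
    R2.H598.Emb d (min (c' / 2) (c' / (8 * (C1 * H254.KK (2 ^ 3)))) / 2) := by
  obtain ⟨T⟩ := h.exists_tree
  obtain ⟨FA, hA, hA1, hA2⟩ := exists_A_X hq hc0 hcc hPc h hB hd hG
  obtain ⟨FN, hN0, hN1, hN2⟩ := H12.exists_N h hnew T (by norm_num) hC1.le hN hd hG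
  have hK : 0 < C1 * H254.KK (2 ^ 3) := mul_pos hC1 (KK_pos _)
  have hN1' : ∀ x y, FN x y ≤ d x y := by
    refine hN0.le_of_gen hG fun u v huv => ?_
    rcases le_total (h.it u) (h.it v) with h1 | h1
    · exact hN1 _ (h.it_lt v) u (h.edge huv h1) v (h.it_mem v)
    · exact hN1 _ (h.it_lt u) u (h.it_mem u) v (h.edge huv.symm h1)
  have hcr := H12.cross h T hd hc hc1 hK hA hN0 hA1 hA2 hN2
  refine ⟨fun x y => 1 / 2 * (FA x y + FN x y), (hA.add hN0).smul (by norm_num), ?_, ?_⟩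
  · intro x y
    have h1 := hcr x y
    show _ ≤ 1 / 2 * (FA x y + FN x y)
    linarith
  · intro x y
    have h1 := hA1 x y
    have h2 := hN1' x y
    show 1 / 2 * (FA x y + FN x y) ≤ _
    linarith

/-- sums over cliques with at most three vertices of pieces in `PX c` -/
theorem finX {q : ℝ → ℝ → ℝ → ℝ → ℝ → ℝ → Prop} (hq : Half q) {c c' : ℝ}
    (hc0 : 0 < c) (hcc : c' ≤ c / 2) (hPc : PieceQ q c c') (hc : 0 < c') (hc1 : c' ≤ 1) :
    ∃ K : ℝ, 1 ≤ K ∧ ∀ (V : Type) [Finite V] (G H : SimpleGraph V), G ≤ H → G.Connected →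
      CliqueSum 3 (PX c) H → DistortionLE G K := by
  obtain ⟨C1, hC1, hN3⟩ := H332.nthm 3 (by norm_num)
  have hK : 0 < C1 * H254.KK (2 ^ 3) := mul_pos hC1 (KK_pos _)
  set c0 : ℝ := min (c' / 2) (c' / (8 * (C1 * H254.KK (2 ^ 3)))) / 2 with hc0def
  have hc00 : 0 < c0 := by
    rw [hc0def]
    have : 0 < min (c' / 2) (c' / (8 * (C1 * H254.KK (2 ^ 3)))) :=
      lt_min (by positivity) (by positivity)
    linarith
  have hc01 : c0 ≤ 1 := by
    rw [hc0def]
    have : min (c' / 2) (c' / (8 * (C1 * H254.KK (2 ^ 3)))) ≤ c' / 2 := min_le_left _ _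
    linarith
  refine ⟨1 / c0, (one_le_div hc00).2 hc01, ?_⟩
  intro V _ G H hle hconn hCS ℓ hℓ
  obtain ⟨m, B, h, hnew, hB⟩ := hCS.reduce
  have hd := pathDist_isMet hconn hℓ
  have hgenG : Gen G (pathDist G ℓ) := by
    intro f hf x y
    exact pathDist_gen hconn (fun u v huv => (hf u v huv).trans (pathDist_adj hℓ huv)) x y
  have hgen : Gen H (pathDist G ℓ) := fun f hf => hgenG f (fun u v huv => hf u v (hle huv))
  exact (embX hq hc0 hcc hPc h hnew hC1 hN3 hc hc1 hB hd hgen).embedsL1 hc00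

/-- the slack condition of `EX.SL` as a relation between six numbers -/
def SLq (dxy dyz dxz fxy fyz fxz : ℝ) : Prop :=
  (fxy + fxz - fyz) / 2 ≤ 4 * ((dxy - fxy) + (dyz - fyz) + (dxz - fxz)) ∨
  (fxy + fyz - fxz) / 2 ≤ 4 * ((dxy - fxy) + (dyz - fyz) + (dxz - fxz)) ∨
  (fxz + fyz - fxy) / 2 ≤ 4 * ((dxy - fxy) + (dyz - fyz) + (dxz - fxz))

theorem half_SLq : Half SLq := by
  intro a b c a' b' c' h1 h2 h3 h4 h5 h6
  left
  linarith

/-- A piece `G` with the clique `R` along which it is glued on: `G` is connected, and `R` has at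
most one vertex (for example: the first piece) and `c₁(G) ≤ C`, or `G` is `EdgeIso` with constant
`C`. -/
def GluePieceX (C : ℝ) (V : Type) (G : SimpleGraph V) (R : Set V) : Prop :=
  G.Connected ∧ ((R.ncard ≤ 1 ∧ DistortionLE G C) ∨ EdgeIso G C)

/-- **Sums over cliques with at most three vertices.** -/
theorem sumX {q : ℝ → ℝ → ℝ → ℝ → ℝ → ℝ → Prop} (hq : Half q)
    (hP : ∀ c : ℝ, 0 < c → c ≤ 1 → PieceQ q c (c / 10 ^ 6)) :
    ∀ C : ℝ, ∃ K : ℝ, ∀ (V : Type) [Finite V] (G H : SimpleGraph V), G ≤ H → G.Connected →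
      CliqueSum 3 (GluePieceX C) H → DistortionLE G K := by
  intro C
  set M : ℝ := max C 1 with hM
  have hM1 : (1 : ℝ) ≤ M := le_max_right _ _
  have hM0 : (0 : ℝ) < M := by linarith
  have hCM : C ≤ M := le_max_left _ _
  have hc : (0 : ℝ) < 1 / M := by positivity
  have hc1 : 1 / M ≤ 1 := (div_le_one hM0).2 hM1
  obtain ⟨K, -, hK⟩ := finX hq (c := 1 / M) (c' := 1 / M / 10 ^ 6) hc
    (by rw [div_le_div_iff₀ (by norm_num) (by norm_num)]; nlinarith) (hP _ hc hc1)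
    (by positivity) (by
      rw [div_le_one (by norm_num)]
      exact hc1.trans (by norm_num))
  refine ⟨K, fun V _ G H hGH hG h => hK V G H hGH hG ?_⟩
  obtain ⟨n, B, hB, hp⟩ := h
  refine ⟨n, B, hB, fun t ht => ?_⟩
  obtain ⟨hconn, ⟨hR, h2⟩ | h2⟩ := hp t ht
  · exact ⟨hconn, fun _ => plain_of_dist hconn hM1 (h2.mono hCM), fun h3 => by omega⟩
  · have hE : EdgeExact (H.induce (B t)) (1 / M) := by
      refine EdgeIso.edgeExact hM0 fun _ ℓ hℓ s t hst => ?_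
      obtain ⟨Ω, hΩ, μ, f, h3, h4⟩ := h2 ℓ hℓ s t hst
      exact ⟨Ω, hΩ, μ, f, h3, fun x y => ⟨(h4 x y).1, (h4 x y).2.trans
        (mul_le_mul_of_nonneg_right hCM (norm_nonneg _))⟩⟩
    exact ⟨hconn, fun _ => plain_of_exact hconn hE, fun _ => hE⟩

end Vale.Agent.P235.K5.H477
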