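import Vale.Agent.P235.K5.H12.Fin
import Vale.Agent.P235.K5.H477.Root

set_option linter.all false

/-!
# Clique sums over at most three vertices, wider class of pieces (helper477)

`H12.emb`, `H12.fin` with the pieces `PR c` of `Root.lean`: a piece with at most one root vertex, in
particular the first piece, only has to satisfy `c₁ ≤ C`.
-/

namespace Vale.Agent.P235.K5.H477

open Finset Function Vale.Agent.P235 Vale.Agent.P235.H684 Vale.Agent.P235.K5

/-- **The embedding of a clique sum.** -/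
theorem embR {m : ℕ} {V : Type} [Finite V] {H : SimpleGraph V} {B : ℕ → Set V}
    (h : Glued 3 H m B) (hnew : ∀ t < m, ∃ v ∈ B t, v ∉ Bef B t) {C1 : ℝ} (hC1 : 0 < C1)
    (hN : ∀ (n T : ℕ) (Z : Tor n T 3) (d : Fin n → Fin n → ℝ), Z.Sep d → Z.NLaw d C1)
    (hPr : PrescStmt) {c : ℝ} (hc : 0 < c) (hc1 : c ≤ 1)
    (hB : ∀ t < m, PR c (B t) (H.induce (B t)) {x | (x : V) ∈ Adh B t})
    {d : V → V → ℝ} (hd : IsMet d) (hG : Gen H d) :
    R2.H598.Emb d (min (c / 12288 / 2) (c / 12288 / (8 * (C1 * H254.KK (2 ^ 3)))) / 2) := by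
  obtain ⟨T⟩ := h.exists_tree
  obtain ⟨FA, hA, hA1, hA2⟩ := exists_A_R hPr h hc hc1 hB hd hG
  obtain ⟨FN, hN0, hN1, hN2⟩ := H12.exists_N h hnew T (by norm_num) hC1.le hN hd hG
  have hK : 0 < C1 * H254.KK (2 ^ 3) := mul_pos hC1 (KK_pos _)
  have hN1' : ∀ x y, FN x y ≤ d x y := by
    refine hN0.le_of_gen hG fun u v huv => ?_
    rcases le_total (h.it u) (h.it v) with h1 | h1
    · exact hN1 _ (h.it_lt v) u (h.edge huv h1) v (h.it_mem v)
    · exact hN1 _ (h.it_lt u) u (h.it_mem u) v (h.edge huv.symm h1)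
  have hcr := H12.cross h T hd (by positivity : 0 < c / 12288) (by linarith) hK hA hN0 hA1 hA2 hN2
  refine ⟨fun x y => 1 / 2 * (FA x y + FN x y), (hA.add hN0).smul (by norm_num), ?_, ?_⟩
  · intro x y
    have h1 := hcr x y
    show _ ≤ 1 / 2 * (FA x y + FN x y)
    linarith
  · intro x y
    have h1 := hA1 x y
    have h2 := hN1' x y
    show 1 / 2 * (FA x y + FN x y) ≤ _
    linarith

/-- **Clique sums over at most three vertices.** -/
theorem finR (hN : ∀ k : ℕ, 1 ≤ k → ∃ C1 : ℝ, 0 < C1 ∧ ∀ (n T : ℕ) (Z : Tor n T k)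
      (d : Fin n → Fin n → ℝ), Z.Sep d → Z.NLaw d C1)
    (hPr : PrescStmt) (c : ℝ) (hc : 0 < c) (hc1 : c ≤ 1) :
    ∃ K : ℝ, 1 ≤ K ∧ ∀ (V : Type) [Finite V] (G H : SimpleGraph V), G ≤ H → G.Connected →
      CliqueSum 3 (PR c) H → DistortionLE G K := by
  obtain ⟨C1, hC1, hN3⟩ := hN 3 (by norm_num)
  have hK : 0 < C1 * H254.KK (2 ^ 3) := mul_pos hC1 (KK_pos _)
  set c' : ℝ := min (c / 12288 / 2) (c / 12288 / (8 * (C1 * H254.KK (2 ^ 3)))) / 2 with hc'
  have hc'0 : 0 < c' := by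
    rw [hc']
    have : 0 < min (c / 12288 / 2) (c / 12288 / (8 * (C1 * H254.KK (2 ^ 3)))) :=
      lt_min (by positivity) (by positivity)
    linarith
  have hc'1 : c' ≤ 1 := by
    rw [hc']
    have : min (c / 12288 / 2) (c / 12288 / (8 * (C1 * H254.KK (2 ^ 3)))) ≤ c / 12288 / 2 :=
      min_le_left _ _
    linarith
  refine ⟨1 / c', (one_le_div hc'0).2 hc'1, ?_⟩
  intro V _ G H hle hconn hCS ℓ hℓ
  obtain ⟨m, B, h, hnew, hB⟩ := hCS.reduce
  have hd := pathDist_isMet hconn hℓ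
  have hgenG : Gen G (pathDist G ℓ) := by
    intro f hf x y
    exact pathDist_gen hconn (fun u v huv => (hf u v huv).trans (pathDist_adj hℓ huv)) x y
  have hgen : Gen H (pathDist G ℓ) := fun f hf => hgenG f (fun u v huv => hf u v (hle huv))
  exact (embR h hnew hC1 hN3 hPr hc hc1 hB hd hgen).embedsL1 hc'0

end Vale.Agent.P235.K5.H477
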