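import Vale.Agent.P235.K5.H477.Fin
import Vale.Agent.P235.K5.H56.Assemble
import Vale.Agent.P235.K5.H750.Presc3
import Vale.Agent.P235.K5.H320.Slot

/-!
# Sums over at most three vertices: the final class of pieces (helper477)
-/

set_option autoImplicit false

namespace Vale.Agent.P235.K5.H477

open SimpleGraph hiding Free
open Vale.Agent.P235 Vale.Agent.P235.H134 Vale.Agent.P235.H56 Vale.Agent.P235.K5
open Vale.Agent.P235.H341W (capG)

/-- A piece `G` with the clique `R` along which it is glued on.  It is connected, and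
`R` has at most one vertex (for example: the first piece) and `c₁(G) ≤ C`; or
`R` has at most two vertices and `G` is `EdgeIso` with constant `C`; or
`G` with a new vertex joined to `R` has no `K_{3,3}` minor. -/
def GluePiece1 (C : ℝ) (V : Type) (G : SimpleGraph V) (R : Set V) : Prop :=
  G.Connected ∧ ((R.ncard ≤ 1 ∧ DistortionLE G C) ∨ (R.ncard ≤ 2 ∧ EdgeIso G C) ∨
    ¬ IsMinor K33 (capG G R))

/-- **Sums over at most three vertices.** -/
theorem sum1 : ∀ C : ℝ, ∃ K : ℝ, ∀ (V : Type) [Finite V] (G H : SimpleGraph V), G ≤ H →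
    G.Connected → CliqueSum 3 (GluePiece1 C) H → DistortionLE G K := by
  intro C
  obtain ⟨C0, hC0, h1, -⟩ := H12.main3
  set M : ℝ := max (max C C0) 1 with hM
  have hM1 : (1 : ℝ) ≤ M := le_max_right _ _
  have hM0 : (0 : ℝ) < M := by linarith
  have hCM : C ≤ M := (le_max_left _ _).trans (le_max_left _ _)
  have hC0M : C0 ≤ M := (le_max_right _ _).trans (le_max_left _ _)
  obtain ⟨K, -, hK⟩ := finR H320.nthm H750.prescStmt (1 / M) (by positivity)
    ((div_le_one hM0).2 hM1)
  refine ⟨K, fun V _ G H hGH hG h => hK V G H hGH hG (H56.CliqueSum.mono' h ?_)⟩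
  rintro B R ⟨hB, ⟨hR, h2⟩ | ⟨hR, h2⟩ | h2⟩
  · exact PR_of_dist hB hM1 (h2.mono hCM) hR
  · have hE : EdgeExact (H.induce B) (1 / M) :=
      EdgeIso.edgeExact hM0 fun _ => ST.H626.EdgeIso.mono' h2 hCM
    exact ⟨hB, fun _ => plain_of_exact hB hE, fun _ => hE, fun h3 => by omega⟩
  · have hE : EdgeExact (H.induce B) (1 / M) :=
      EdgeIso.edgeExact hM0 fun _ => ST.H626.EdgeIso.mono'
        (h1 B _ hB fun h33 => h2 (minor_trans h33 (H56.minor_cap _ _))).1 hC0M
    exact ⟨hB, fun _ => plain_of_exact hB hE, fun _ => hE, fun _ => ⟨hE, h2⟩⟩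

end Vale.Agent.P235.K5.H477
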